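import Vale.Agent.P141.H92.PairFin
import Vale.Agent.P141.H389.RealAC
import Vale.Agent.P141.H708.KillT

/-!
# The pair of a raw family against a capped stack family: the numbers

* `TV_exactE` : the plane energy of an exact family whose own energies grow by errors;
* `EW_capA`, `TV_pathA` : the raw scalar family along a killed path;
* `gcs_sum` : the own middle defects of a stack family;
* `pairAC_TV` : `H389.pairAC_total` with the plane energy of the raw family as a number;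
* `rawAC_num` : all sums of the raw pair in one number.
-/

namespace Vale.Agent.P141.H92

open Finset Matrix Vale.Agent.P141.PL Vale.Agent.P141.PL.H103 Vale.Agent.P141.H103
open Vale.Agent.P075 (phi delt GX Ix rad)
open Vale.Agent.P141.H585.PairCh (phs dls mv)
open Vale.Agent.P141.H389
open Vale.Agent.P141.H505 (SG SD SC)
open Vale.Agent.P141.H336 (Stk bsum bsum_mono bsum_nonneg bsum_add bsum_smul bsum_outer bsum_mid)

noncomputable section

/-! ### Exact families with errors -/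

theorem WW_const (N k : ℕ) {d : ℝ} (hd : 0 ≤ d) : WW N k (fun _ => d) ≤ 4 * d := by
  unfold WW
  rw [← sum_mul]
  exact mul_le_mul_of_nonneg_right (H336.geo _) hd

/-- the energy `TV` of an exact family whose own energies grow by errors -/
theorem TV_exactE {k₀ N : ℕ} (hkN : k₀ ≤ N) {R S : ℤ} {ι : ℕ → Type*} [∀ k, Fintype (ι k)]
    {P : ∀ k, ℕ → ℤ → ℤ → Matrix (ι k) (ι k) ℝ} {d : ℕ → ℝ} (d0 : ∀ k, 0 ≤ d k)
    (oP : ∀ k, k₀ ≤ k → k ≤ N → OutM N k (P k)) (sP : ∀ k a n m, (P k a n m)ᵀ = P k a n m)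
    (own : ∀ k, k₀ ≤ k → k < N → ∀ a, k + 1 ≤ a → a ≤ N →
      EW N R S (k + 1) (P (k + 1)) a ≤ EW N R S k (P k) a + d k) :
    TV k₀ N R S P ≤ 77 * (EW N R S k₀ (P k₀) k₀ + ∑ k ∈ Ico k₀ N, d k) := by
  have key : ∀ K, k₀ ≤ K → K ≤ N → ∑ k ∈ Ico k₀ K, SVM N k R S (P k)
      + WW N K (EW N R S K (P K)) ≤ WW N k₀ (EW N R S k₀ (P k₀)) + 4 * ∑ k ∈ Ico k₀ K, d k := by
    intro K hK
    induction K, hK using Nat.le_induction with
    | base => intro _; simp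
    | succ K hK ih =>
      intro hKN
      have hlt : K < N := by omega
      have q := ih hlt.le
      have q2 := WW_step hlt (e := EW N R S K (P K)) (e' := EW N R S (K + 1) (P (K + 1)))
        (d := fun _ => d K) (fun a h1 h2 => own K hK hlt a h1 h2)
      have q3 := WW_const N (K + 1) (d0 K)
      rw [sum_Ico_succ_top hK, sum_Ico_succ_top hK, SVM_eq hlt.le (oP K hK hlt.le)]
      linarith
  have h := key N hkN le_rfl
  have p2 := WW_le (N := N) (k := k₀) (e := EW N R S k₀ (P k₀)) (EW_nonneg (sP k₀) k₀)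
    fun a h1 h2 => EW_anti' (oP k₀ le_rfl hkN) (sP k₀) h1 h2
  have p3 := le_WW (N := N) (k := N) (e := EW N R S N (P N)) (EW_nonneg (sP N))
  have p4 : 0 ≤ ∑ k ∈ Ico k₀ N, SVM N k R S (P k) :=
    Finset.sum_nonneg fun k _ => SVM_nonneg (sP k)
  have p5 := EW_nonneg (N := N) (R := R) (S := S) (k := N) (sP N) N
  have p6 : 0 ≤ ∑ k ∈ Ico k₀ N, d k := Finset.sum_nonneg fun k _ => d0 k
  have p7 := EW_nonneg (N := N) (R := R) (S := S) (k := k₀) (sP k₀) k₀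
  unfold TV
  linarith

/-! ### The raw scalar family -/

theorem tr_PA (A : ℤ → ℤ → ℝ) (k a : ℕ) (n m : ℤ) :
    (PA A k a n m).trace
      = ((2 : ℝ) ^ a * 2 ^ k)⁻¹ * ∑ x ∈ iv a n, ∑ y ∈ iv k m, A x y ^ 2 := by
  have e : PA A k a n m = (rws (un A) a k n m)ᵀ * blW a n (fun _ => (1 : Matrix Unit Unit ℝ))
      * rws (un A) a k n m := by
    rw [blW_one, Matrix.mul_one]
    exact PA_rws A k a n m
  rw [e, tr_quad]
  congr 1
  refine sum_congr rfl fun x _ => sum_congr rfl fun y _ => ?_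
  rw [Matrix.one_mulVec]
  simp [un, dotProduct, pow_two]

/-- sum over the cells of the root -/
theorem sum_root {N : ℕ} {a k : ℕ} (ha : a ≤ N) (hk : k ≤ N) (R S : ℤ) (f : ℤ → ℤ → ℝ) :
    ∑ m ∈ iv (N - k) S, ∑ n ∈ iv (N - a) R, ∑ x ∈ iv a n, ∑ y ∈ iv k m, f x y
      = ∑ x ∈ iv N R, ∑ y ∈ iv N S, f x y := by
  have e1 : ∀ m, ∑ n ∈ iv (N - a) R, ∑ x ∈ iv a n, ∑ y ∈ iv k m, f x y
      = ∑ x ∈ iv N R, ∑ y ∈ iv k m, f x y := fun m =>
    H258.sum_sub ha R fun _ x => ∑ y ∈ iv k m, f x y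
  rw [sum_congr rfl fun m _ => e1 m, sum_comm]
  exact sum_congr rfl fun x _ => H258.sum_sub hk S fun _ y => f x y

/-- the own energy of a raw scalar family with the cap `τ` -/
theorem EW_capA {N k : ℕ} (hk : k ≤ N) (R S : ℤ) (A : ℤ → ℤ → ℝ) {τ : ℝ}
    (cap : ∀ n ∈ iv (N - k) R, ∀ m ∈ iv (N - k) S,
      (τ • (1 : Matrix (Ix k) (Ix k) ℝ) - PA A k k n m).PosSemidef) :
    EW N R S k (PA A k) k ≤ τ * ∑ x ∈ iv N R, ∑ y ∈ iv N S, A x y ^ 2 := by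
  have h : EW N R S k (PA A k) k ≤ (2 : ℝ) ^ k * 2 ^ k * ∑ m ∈ iv (N - k) S,
      ∑ n ∈ iv (N - k) R, τ * (((2 : ℝ) ^ k * 2 ^ k)⁻¹ * ∑ x ∈ iv k n, ∑ y ∈ iv k m, A x y ^ 2) := by
    unfold EW
    refine mul_le_mul_of_nonneg_left (sum_le_sum fun m hm => sum_le_sum fun n hn => ?_)
      (by positivity)
    have h1 := P075.trace_mul_le_left (PA_psd A k k n m) (cap n hn m hm)
    rw [smul_mul_assoc, Matrix.one_mul, trace_smul, smul_eq_mul, tr_PA] at h1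
    exact h1
  refine h.trans (le_of_eq ?_)
  simp only [← mul_sum]
  rw [sum_root hk hk R S fun x y => A x y ^ 2]
  have : ((2 : ℝ) ^ k * 2 ^ k) * ((2 : ℝ) ^ k * 2 ^ k)⁻¹ = 1 := mul_inv_cancel₀ (by positivity)
  calc (2 : ℝ) ^ k * 2 ^ k * (τ * (((2 : ℝ) ^ k * 2 ^ k)⁻¹ * ∑ x ∈ iv N R, ∑ y ∈ iv N S, A x y ^ 2))
      = ((2 : ℝ) ^ k * 2 ^ k) * ((2 : ℝ) ^ k * 2 ^ k)⁻¹
        * (τ * ∑ x ∈ iv N R, ∑ y ∈ iv N S, A x y ^ 2) := by ring
    _ = _ := by rw [this, one_mul]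

/-- **The raw scalar family along a killed path.** -/
theorem TV_pathA {k₀ N : ℕ} (hkN : k₀ ≤ N) {R S : ℤ} {e : ℝ} (he : 0 ≤ e)
    {Q : ℕ → ℤ → ℤ → Prop} {A : ℕ → ℤ → ℤ → ℝ}
    (h : ∀ K < N, H708.Kill N R S K e (Q K) (un (A K)) (un (A (K + 1)))) {τ : ℝ} (τ0 : 0 ≤ τ)
    (cap : ∀ k, k₀ ≤ k → k ≤ N → ∀ a, k ≤ a → a ≤ N → ∀ m ∈ iv (N - k) S, ∀ n ∈ iv (N - a) R,
      (τ • (1 : Matrix (Ix k) (Ix k) ℝ) - PA (A k) k a n m).PosSemidef) {cP : ℝ}
    (hQ : H958.PackQ N R S Q cP) :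
    TV k₀ N R S (fun k => PA (A k) k)
      ≤ 77 * (τ * ∑ x ∈ iv N R, ∑ y ∈ iv N S, A k₀ x y ^ 2 + 8 * τ * e * (√2 * (cP * 4 ^ N))) := by
  have d0 : ∀ k, 0 ≤ 8 * τ * e * H708.kch N R S Q 0 (k + 1) := fun k =>
    mul_nonneg (by positivity) (H708.kch_nonneg _ _ _ _ _ _)
  have h1 := TV_exactE hkN (R := R) (S := S) (P := fun k => PA (A k) k) d0
    (fun k _ _ => PA_out N k (A k)) (fun k a n m => PA_symm (A k) k a n m)
    (fun k k1 k2 a a1 a2 => by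
      have q := H708.EW_pathA h (i := 0) (l := k + 1) (by omega) (by omega) he τ0 a2
        (fun m hm n hn => cap (k + 1) (by omega) (by omega) a a1 a2 m hm n hn)
      have q2 := PA_own k2 R S (A k) a
      simp only [Nat.sub_zero, Nat.add_sub_cancel] at q
      linarith)
  have h2 := EW_capA hkN R S (A k₀) (τ := τ) fun n hn m hm =>
    cap k₀ le_rfl hkN k₀ le_rfl hkN m hm n hn
  have h3 : ∑ k ∈ Ico k₀ N, 8 * τ * e * H708.kch N R S Q 0 (k + 1)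
      ≤ 8 * τ * e * (√2 * (cP * 4 ^ N)) := by
    rw [← mul_sum]
    refine mul_le_mul_of_nonneg_left ?_ (by positivity)
    have s := H708.sum_kch hQ 0
    rw [zero_add, pow_one] at s
    refine le_trans ?_ s
    have e1 : ∑ k ∈ Ico k₀ N, H708.kch N R S Q 0 (k + 1)
        = ∑ l ∈ Ico (k₀ + 1) (N + 1), H708.kch N R S Q 0 l :=
      sum_Ico_add' (fun l => H708.kch N R S Q 0 l) k₀ N 1
    rw [e1]
    refine sum_le_sum_of_subset_of_nonneg (fun l hl => ?_) fun l _ _ => H708.kch_nonneg _ _ _ _ _ _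
    rw [mem_Ico] at hl
    rw [mem_Icc]
    omega
  linarith

/-! ### Own middle defects -/

/-- the Gram matrix of scale `k + 1` on the two halves -/
def sIx (W : ∀ k, ℕ → ℤ → ℤ → Matrix (Ix k) (Ix k) ℝ) (k a : ℕ) (n m : ℤ) :
    Matrix (Ix k ⊕ Ix k) (Ix k ⊕ Ix k) ℝ := W (k + 1) a n m

/-- own middle defect -/
def gcs (W : ∀ k, ℕ → ℤ → ℤ → Matrix (Ix k) (Ix k) ℝ) (s : ℝ) (k a : ℕ) (n m : ℤ) : ℝ :=
  (phs s (sIx W k a n m) * (rad (Ix k) * phs s (sIx W k a n m) * rad (Ix k))).trace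

theorem phr_nonneg {n : Type*} [Fintype n] [DecidableEq n] {X r : Matrix n n ℝ}
    (hX : X.PosSemidef) (hr : rᵀ = r) : 0 ≤ (phi X * (r * phi X * r)).trace := by
  refine P075.trace_mul_nonneg (P075.phi_psd hX) ?_
  exact P075.psd_conj_symm (P075.phi_psd hX) hr

/-- one level of the column defects -/
theorem gcs_le {n : Type*} [Fintype n] [DecidableEq n] {X r : Matrix n n ℝ}
    (hX : X.PosSemidef) (hr : rᵀ = r) {μ : ℝ} (hμ : 0 < μ) {J j : ℕ} (hj : j ≤ J) :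
    (phs ((μ / 4 ^ j)⁻¹) X * (r * phs ((μ / 4 ^ j)⁻¹) X * r)).trace
      ≤ (μ / 4 ^ j)⁻¹ * SC μ J r X := by
  have hp : ∀ i : ℕ, 0 < (μ / 4 ^ i)⁻¹ := fun i => by positivity
  have h := single_le_sum (f := fun i : ℕ => (μ / 4 ^ i)⁻¹
      * (phi ((μ / 4 ^ i) • X) * (r * phi ((μ / 4 ^ i) • X) * r)).trace)
    (s := range (J + 1)) (fun i _ => mul_nonneg (hp i).le
      (phr_nonneg (hX.smul (by positivity : (0 : ℝ) ≤ μ / 4 ^ i)) hr))
    (mem_range.2 (Nat.lt_succ_of_le hj))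
  have e : (phs ((μ / 4 ^ j)⁻¹) X * (r * phs ((μ / 4 ^ j)⁻¹) X * r)).trace
      = (μ / 4 ^ j)⁻¹ * ((μ / 4 ^ j)⁻¹
        * (phi ((μ / 4 ^ j) • X) * (r * phi ((μ / 4 ^ j) • X) * r)).trace) := by
    unfold phs
    rw [inv_inv]
    simp only [Matrix.smul_mul, Matrix.mul_smul, trace_smul, smul_eq_mul]
  rw [e]
  exact mul_le_mul_of_nonneg_left h (hp j).le

theorem rad_symm' (k : ℕ) : (rad (Ix k))ᵀ = rad (Ix k) := P075.rad_symm

section stk

variable {k₀ N : ℕ} {R S : ℤ} {μ : ℝ} {J : ℕ}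
  {W X₀ X₁ M₀ M₁ : ∀ k, ℕ → ℤ → ℤ → Matrix (Ix k) (Ix k) ℝ}
  {q p γ : ℕ → ℕ → ℤ → ℤ → ℝ} {H Qo Qm : ℝ}

/-- the middle gain of the stack contains the column defects of all levels -/
def GamC (k₀ N : ℕ) (μ : ℝ) (J : ℕ) (W : ∀ k, ℕ → ℤ → ℤ → Matrix (Ix k) (Ix k) ℝ)
    (γ : ℕ → ℕ → ℤ → ℤ → ℝ) : Prop :=
  ∀ k, k₀ ≤ k → k < N → ∀ n m, (1 / 4) * SC μ J (rad (Ix k)) (sIx W k (k + 1) n m)
    ≤ γ k (k + 1) n m

/-- **The own middle defects over all scales.** -/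
theorem gcs_sum (h : Stk k₀ N R S μ J W X₀ X₁ M₀ M₁ q p γ H Qo Qm) (hγ : GamC k₀ N μ J W γ)
    {j : ℕ} (hj : j ≤ J) :
    ∑ k ∈ Ico k₀ N, bsum N R S (k + 1) (k + 1) (gcs W ((μ / 4 ^ j)⁻¹) k (k + 1))
      ≤ 4 * (μ / 4 ^ j)⁻¹ * Est J H Qo Qm := by
  have hμ := h.hμ
  have hp : 0 < (μ / 4 ^ j)⁻¹ := by positivity
  have h0 := h.mid_diag 0
  simp only [Nat.sub_zero, Nat.add_zero] at h0
  have key : ∀ k ∈ Ico k₀ N, bsum N R S (k + 1) (k + 1) (gcs W ((μ / 4 ^ j)⁻¹) k (k + 1))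
      ≤ 4 * (μ / 4 ^ j)⁻¹ * ((2 : ℝ) ^ (k + 1) * 2 ^ (k + 1) * ∑ m ∈ iv (N - (k + 1)) S,
        ∑ n ∈ iv (N - (k + 1)) R, γ k (k + 1) n m) := by
    intro k hk
    obtain ⟨k1, k2⟩ := mem_Ico.1 hk
    refine (bsum_mono (g := fun n m => 4 * (μ / 4 ^ j)⁻¹ * γ k (k + 1) n m)
      fun n m => ?_).trans (le_of_eq ?_)
    · have g1 := gcs_le (X := sIx W k (k + 1) n m) (r := rad (Ix k)) (h.psd (k + 1) (k + 1) n m)
        (rad_symm' k) hμ hj
      have g2 := mul_le_mul_of_nonneg_left (hγ k k1 k2 n m) hp.le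
      unfold gcs
      linarith
    · rw [bsum_smul]
      rfl
  refine (sum_le_sum key).trans ?_
  rw [← mul_sum]
  have := mul_le_mul_of_nonneg_left h0 (by positivity : (0 : ℝ) ≤ 4 * (μ / 4 ^ j)⁻¹)
  unfold Est
  linarith

/-- **All sums of the raw pair in one number**: `G` is a quantity with the four terms of
`H389.realAC`, `Tp` a bound for the plane energy of the raw family. -/
theorem rawAC_num {T : ℤ} {c : ℕ → ℤ}
    (hW : Stk k₀ N T S μ J W X₀ X₁ M₀ M₁ q p γ H Qo Qm) (oW : StO M₀ M₁)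
    (hγ : GamC k₀ N μ J W γ) {j : ℕ} (hj : j ≤ J) {s : ℝ} (es : s = (μ / 4 ^ j)⁻¹)
    {τ Tp Cq G TP : ℝ} (hτ : 0 ≤ τ) (hTP0 : 0 ≤ TP) (hTP : TP ≤ Tp)
    (hG : G ≤ √(TP * TV k₀ N T S (fun k a n m => phs s (W k a n m)))
      + τ * s⁻¹ / 2 * ∑ k ∈ Ico k₀ N, GW N R S T (k + 1) (c (k + 1)) (fun _ n' m =>
        dh s (W k k) n' m)
      + τ * s⁻¹ / 2 * ∑ k ∈ Ico k₀ N, GW N R S T (k + 1) (c (k + 1)) (fun _ n' m =>
        gcs W s k (k + 1) n' m)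
      + 2 * τ * Cq) :
    G ≤ √(1300 * (s * (Tp * Est J H Qo Qm))) + 6 * τ * Est J H Qo Qm + 2 * τ * Cq := by
  have hμ := hW.hμ
  have ps : 0 < s := by rw [es]; positivity
  have d1 : ∑ k ∈ Ico k₀ N, GW N R S T (k + 1) (c (k + 1)) (fun _ n' m => dh s (W k k) n' m)
      ≤ 8 * s * Est J H Qo Qm := by
    refine (sum_le_sum fun k _ => GW_right N R S T (k + 1) (c (k + 1)) fun n m => ?_).trans ?_
    · exact add_nonneg (dls_nonneg ps (hW.psd _ _ _ _) (hW.psd _ _ _ _))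
        (dls_nonneg ps (hW.psd _ _ _ _) (hW.psd _ _ _ _))
    · have := dh_sum hW oW hj
      rw [← es] at this
      exact this
  have d2 : ∑ k ∈ Ico k₀ N, GW N R S T (k + 1) (c (k + 1)) (fun _ n' m =>
      gcs W s k (k + 1) n' m) ≤ 4 * s * Est J H Qo Qm := by
    refine (sum_le_sum fun k _ => GW_right N R S T (k + 1) (c (k + 1)) fun n m => ?_).trans ?_
    · have hp := phs_psd ps (hW.psd (k + 1) (k + 1) n m)
      exact P075.trace_mul_nonneg (V := rad (Ix k) * phs s (sIx W k (k + 1) n m) * rad (Ix k))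
        hp (P075.psd_conj_symm hp (rad_symm' k))
    · have := gcs_sum hW hγ hj
      rw [← es] at this
      exact this
  have t2 := hW.TV_stack hj
  rw [← es] at t2
  have z2 : 0 ≤ TV k₀ N T S (fun k a n m => phs s (W k a n m)) :=
    TV_nonneg fun k a n m => phs_symm ps (hW.psd k a n m)
  have hE : 0 ≤ Est J H Qo Qm := by
    have := hW.H_nonneg
    have := hW.Qo_nonneg
    have := hW.Qm_nonneg
    unfold Est
    positivity
  have t3 : √(TP * TV k₀ N T S (fun k a n m => phs s (W k a n m)))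
      ≤ √(1300 * (s * (Tp * Est J H Qo Qm))) := by
    have h1 := mul_le_mul hTP t2 z2 (hTP0.trans hTP)
    refine Real.sqrt_le_sqrt (h1.trans (le_of_eq ?_))
    unfold Est
    ring
  have b1 : τ * s⁻¹ / 2 * (8 * s * Est J H Qo Qm) = 4 * τ * Est J H Qo Qm := by
    field_simp
    ring
  have b2 : τ * s⁻¹ / 2 * (4 * s * Est J H Qo Qm) = 2 * τ * Est J H Qo Qm := by
    field_simp
    ring
  have c1 := mul_le_mul_of_nonneg_left d1 (by positivity : 0 ≤ τ * s⁻¹ / 2)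
  have c2 := mul_le_mul_of_nonneg_left d2 (by positivity : 0 ≤ τ * s⁻¹ / 2)
  linarith

end stk

end

end Vale.Agent.P141.H92
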