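import Vale.Agent.P141.H389.PairAC

/-!
# Pair sum of two capped families (abstract form)

Both families are capped: `phs s1 V` and `phs s2 W`, `V` and `W` positive semidefinite with exact
outer averages. The concavity defects of the outer step are paid by the own defects `dls` of `V`
and of `W`.
-/

namespace Vale.Agent.P141.H92

open Finset Matrix Vale.Agent.P141.PL Vale.Agent.P141.PL.H103 Vale.Agent.P141.H103
open Vale.Agent.P075 (phi delt)
open Vale.Agent.P141.H585.PairCh (phs dls)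
open Vale.Agent.P141.H389

noncomputable section

section mat

variable {ι : Type*} [Fintype ι] [DecidableEq ι]

theorem phs_psd {s : ℝ} (hs : 0 < s) {X : Matrix ι ι ℝ} (hX : X.PosSemidef) :
    (phs s X).PosSemidef :=
  (P075.phi_psd (hX.smul (inv_pos.2 hs).le)).smul hs.le

theorem phs_cap {s : ℝ} (hs : 0 < s) {X : Matrix ι ι ℝ} (hX : X.PosSemidef) :
    (s • (1 : Matrix ι ι ℝ) - phs s X).PosSemidef := by
  have h := (P075.one_sub_phi_psd (hX.smul (inv_pos.2 hs).le)).smul hs.le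
  rwa [smul_sub] at h

/-- the loss of the outer step, both slots capped -/
theorem outer_loss2 {s1 s2 : ℝ} (h1 : 0 < s1) (h2 : 0 < s2) {V₀ V₁ W₀ W₁ : Matrix ι ι ℝ}
    (v0 : V₀.PosSemidef) (v1 : V₁.PosSemidef) (w0 : W₀.PosSemidef) (w1 : W₁.PosSemidef) :
    (phs s1 ((1 / 2 : ℝ) • (V₀ + V₁)) * phs s2 ((1 / 2 : ℝ) • (W₀ + W₁))).trace
      ≤ (((1 / 2 : ℝ) • (phs s1 V₀ + phs s1 V₁)) * ((1 / 2 : ℝ) • (phs s2 W₀ + phs s2 W₁))).trace
        + s2 * s1⁻¹ * dls s1 V₀ V₁ + s1 * s2⁻¹ * dls s2 W₀ W₁ := by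
  have vm : ((1 / 2 : ℝ) • (V₀ + V₁)).PosSemidef := (v0.add v1).smul (by norm_num)
  have a := outer_loss h2 (phs_cap h1 vm) w0 w1
  -- the mean of the second slot is capped by `s2`
  have c : (s2 • (1 : Matrix ι ι ℝ) - (1 / 2 : ℝ) • (phs s2 W₀ + phs s2 W₁)).PosSemidef := by
    have e : s2 • (1 : Matrix ι ι ℝ) - (1 / 2 : ℝ) • (phs s2 W₀ + phs s2 W₁)
        = (1 / 2 : ℝ) • ((s2 • (1 : Matrix ι ι ℝ) - phs s2 W₀)
          + (s2 • (1 : Matrix ι ι ℝ) - phs s2 W₁)) := by module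
    rw [e]
    exact ((phs_cap h2 w0).add (phs_cap h2 w1)).smul (by norm_num)
  have b := outer_loss h1 c v0 v1
  rw [trace_mul_comm, trace_mul_comm _ ((1 / 2 : ℝ) • (phs s1 V₀ + phs s1 V₁))] at b
  linarith

end mat

theorem GW_add (N : ℕ) (R S T : ℤ) (k : ℕ) (c : ℤ) (g d : ℤ → ℤ → ℤ → ℝ) (t : ℝ) :
    GW N R S T k c (fun n n' m => g n n' m + t * d n n' m)
      = GW N R S T k c g + t * GW N R S T k c d := by
  have h := GW_sub N R S T k c g d (-t)
  simp only [neg_mul, sub_neg_eq_add] at h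
  exact h

/-- the defects of the two middle halves -/
def dh {ι : Type*} [Fintype ι] [DecidableEq ι] (s : ℝ) (V : ℤ → ℤ → Matrix ι ι ℝ) (n m : ℤ) : ℝ :=
  dls s (V (2 * n) (2 * m)) (V (2 * n + 1) (2 * m))
    + dls s (V (2 * n) (2 * m + 1)) (V (2 * n + 1) (2 * m + 1))

/-- **Pair sum of two capped families.** -/
theorem pairSS_total {k₀ N : ℕ} (hkN : k₀ ≤ N) {R S T : ℤ} {c : ℕ → ℤ} (hc : H588.Pl c)
    {ι : ℕ → Type*} [∀ k, Fintype (ι k)] [∀ k, DecidableEq (ι k)] {s1 s2 : ℝ} (h1 : 0 < s1)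
    (h2 : 0 < s2) {V W : ∀ k, ℕ → ℤ → ℤ → Matrix (ι k) (ι k) ℝ} {g : ℕ → ℤ → ℤ → ℤ → ℝ}
    (pV : ∀ k a n m, (V k a n m).PosSemidef) (pW : ∀ k a n m, (W k a n m).PosSemidef)
    (oV : ∀ k, k₀ ≤ k → k ≤ N → OutM N k (V k)) (oW : ∀ k, k₀ ≤ k → k ≤ N → OutM N k (W k))
    (mid : ∀ k, k₀ ≤ k → k < N → ∀ n n' m,
      (phs s1 (V (k + 1) (k + 1) n m) * phs s2 (W (k + 1) (k + 1) n' m)).trace + g k n n' m
      ≤ (1 / 2) * ((phs s1 (V k (k + 1) n (2 * m)) * phs s2 (W k (k + 1) n' (2 * m))).trace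
        + (phs s1 (V k (k + 1) n (2 * m + 1)) * phs s2 (W k (k + 1) n' (2 * m + 1))).trace)) :
    ∑ k ∈ Ico k₀ N, GW N R S T (k + 1) (c (k + 1)) (g k)
      ≤ √(TV k₀ N R S (fun k a n m => phs s1 (V k a n m))
          * TV k₀ N T S (fun k a n m => phs s2 (W k a n m)))
        + s2 * s1⁻¹ / 2 * ∑ k ∈ Ico k₀ N, GW N R S T (k + 1) (c (k + 1)) (fun n _ m =>
          dh s1 (V k k) n m)
        + s1 * s2⁻¹ / 2 * ∑ k ∈ Ico k₀ N, GW N R S T (k + 1) (c (k + 1)) (fun _ n' m =>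
          dh s2 (W k k) n' m) := by
  have h := totalV_sqrt hkN hc (P := fun k a n m => phs s1 (V k a n m))
    (Q := fun k a n m => phs s2 (W k a n m))
    (g := fun k n n' m => (g k n n' m - s2 * s1⁻¹ / 2 * dh s1 (V k k) n m)
      - s1 * s2⁻¹ / 2 * dh s2 (W k k) n' m) (R := R) (S := S) (T := T)
    (fun k a n m => phs_symm h1 (pV k a n m)) (fun k a n m => phs_symm h2 (pW k a n m))
    (fun k k1 k2 n n' m => by
      have q := mid k k1 k2 n n' m
      have a0 : ∀ j, V k (k + 1) n j = (1 / 2 : ℝ) • (V k k (2 * n) j + V k k (2 * n + 1) j) :=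
        fun j => oV k k1 k2.le k le_rfl k2 n j
      have b0 : ∀ j, W k (k + 1) n' j = (1 / 2 : ℝ) • (W k k (2 * n') j + W k k (2 * n' + 1) j) :=
        fun j => oW k k1 k2.le k le_rfl k2 n' j
      have l : ∀ j, (phs s1 (V k (k + 1) n j) * phs s2 (W k (k + 1) n' j)).trace
          ≤ (mn (fun n => phs s1 (V k k n j)) n * mn (fun n => phs s2 (W k k n j)) n').trace
            + s2 * s1⁻¹ * dls s1 (V k k (2 * n) j) (V k k (2 * n + 1) j)
            + s1 * s2⁻¹ * dls s2 (W k k (2 * n') j) (W k k (2 * n' + 1) j) := by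
        intro j
        rw [a0 j, b0 j]
        exact outer_loss2 h1 h2 (pV _ _ _ _) (pV _ _ _ _) (pW _ _ _ _) (pW _ _ _ _)
      have l0 := l (2 * m)
      have l1 := l (2 * m + 1)
      simp only [dh]
      linarith)
  have e : ∑ k ∈ Ico k₀ N, GW N R S T (k + 1) (c (k + 1))
        (fun n n' m => (g k n n' m - s2 * s1⁻¹ / 2 * dh s1 (V k k) n m)
          - s1 * s2⁻¹ / 2 * dh s2 (W k k) n' m)
      = ∑ k ∈ Ico k₀ N, GW N R S T (k + 1) (c (k + 1)) (g k)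
        - s2 * s1⁻¹ / 2 * ∑ k ∈ Ico k₀ N, GW N R S T (k + 1) (c (k + 1))
          (fun n _ m => dh s1 (V k k) n m)
        - s1 * s2⁻¹ / 2 * ∑ k ∈ Ico k₀ N, GW N R S T (k + 1) (c (k + 1))
          (fun _ n' m => dh s2 (W k k) n' m) := by
    rw [Finset.mul_sum, Finset.mul_sum, ← Finset.sum_sub_distrib, ← Finset.sum_sub_distrib]
    refine Finset.sum_congr rfl fun k _ => ?_
    rw [GW_sub N R S T (k + 1) (c (k + 1))
      (fun n n' m => g k n n' m - s2 * s1⁻¹ / 2 * dh s1 (V k k) n m)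
      (fun _ n' m => dh s2 (W k k) n' m) (s1 * s2⁻¹ / 2)]
    rw [GW_sub N R S T (k + 1) (c (k + 1)) (g k) (fun n _ m => dh s1 (V k k) n m)
      (s2 * s1⁻¹ / 2)]
  rw [e] at h
  linarith

end

end Vale.Agent.P141.H92
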