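import Vale.Agent.P141.H92.NumAC
import Vale.Agent.P141.H389.PathA
import Vale.Agent.P141.H170.PathAC
import Vale.Agent.P141.H38.StkP

/-!
# The pair of a raw slot against a capped moving stack, both along paths (real letters)

`A k`, `b k` are the functions of time `k`; they change on the row pieces `P k`, `D k` only (in any
way). `nodeACp` : the middle step; `realACp` : the plane sum of the gains; the births of the raw
slot are kept as the plane sum `BBp`; `realACp_num` : the numbers over `H38.stkP`.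
-/

namespace Vale.Agent.P141.H92

open Finset Matrix Vale.Agent.P141.PL Vale.Agent.P141.PL.H103 Vale.Agent.P141.H103
open Vale.Agent.P075 (phi delt GX Ix rad val)
open Vale.Agent.P141.H585.PairCh (phs dls mv)
open Vale.Agent.P141.H389
open Vale.Agent.P141.H505 (SG SD SC)
open Vale.Agent.P141.H336 (Stk bsum bsum_mono bsum_nonneg bsum_add bsum_smul bsum_outer bsum_mid)

noncomputable section

/-! ### The abstract pair with the plane energy of the raw family as a number -/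

/-- `H389.pairAC_total` without the hypothesis on the own energies of the raw family. -/
theorem pairAC_TV {k₀ N : ℕ} (hkN : k₀ ≤ N) {R S T : ℤ} {c : ℕ → ℤ} (hc : H588.Pl c)
    {ι : ℕ → Type*} [∀ k, Fintype (ι k)] [∀ k, DecidableEq (ι k)] {s2 t2 : ℝ} (hs : 0 < s2)
    {P W : ∀ k, ℕ → ℤ → ℤ → Matrix (ι k) (ι k) ℝ} {g : ℕ → ℤ → ℤ → ℤ → ℝ}
    (sP : ∀ k a n m, (P k a n m)ᵀ = P k a n m) (pW : ∀ k a n m, (W k a n m).PosSemidef)
    (oP : ∀ k, k₀ ≤ k → k ≤ N → OutM N k (P k)) (oW : ∀ k, k₀ ≤ k → k ≤ N → OutM N k (W k))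
    (cap : ∀ k, k₀ ≤ k → k < N → ∀ n m,
      (t2 • (1 : Matrix (ι k) (ι k) ℝ) - P k (k + 1) n m).PosSemidef)
    (mid : ∀ k, k₀ ≤ k → k < N → ∀ n n' m,
      (P (k + 1) (k + 1) n m * phs s2 (W (k + 1) (k + 1) n' m)).trace + g k n n' m
      ≤ (1 / 2) * ((P k (k + 1) n (2 * m) * phs s2 (W k (k + 1) n' (2 * m))).trace
        + (P k (k + 1) n (2 * m + 1) * phs s2 (W k (k + 1) n' (2 * m + 1))).trace)) :
    ∑ k ∈ Ico k₀ N, GW N R S T (k + 1) (c (k + 1)) (g k)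
      ≤ √(TV k₀ N R S P * TV k₀ N T S (fun k a n m => phs s2 (W k a n m)))
        + t2 * s2⁻¹ / 2 * ∑ k ∈ Ico k₀ N, GW N R S T (k + 1) (c (k + 1)) (fun _ n' m =>
          dh s2 (W k k) n' m) := by
  have h := totalV_sqrt hkN hc (P := P) (Q := fun k a n m => phs s2 (W k a n m))
    (g := fun k n n' m => g k n n' m - t2 * s2⁻¹ / 2 * dh s2 (W k k) n' m)
    (R := R) (S := S) (T := T) sP
    (fun k a n m => phs_symm hs (pW k a n m))
    (fun k h1 h2 n n' m => by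
      have q := mid k h1 h2 n n' m
      have a0 : ∀ h, mn (fun n => P k k n h) n = P k (k + 1) n h := fun h =>
        (oP k h1 h2.le k le_rfl h2 n h).symm
      have b0 : ∀ h, W k (k + 1) n' h = (1 / 2 : ℝ) • (W k k (2 * n') h + W k k (2 * n' + 1) h) :=
        fun h => oW k h1 h2.le k le_rfl h2 n' h
      have l : ∀ h, (P k (k + 1) n h * phs s2 (W k (k + 1) n' h)).trace
          ≤ (P k (k + 1) n h * mn (fun n => phs s2 (W k k n h)) n').trace
            + t2 * s2⁻¹ * dls s2 (W k k (2 * n') h) (W k k (2 * n' + 1) h) := by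
        intro h
        rw [b0 h]
        exact outer_loss hs (cap k h1 h2 n h) (pW _ _ _ _) (pW _ _ _ _)
      have l0 := l (2 * m)
      have l1 := l (2 * m + 1)
      simp only [a0, dh]
      linarith)
  have e : ∑ k ∈ Ico k₀ N, GW N R S T (k + 1) (c (k + 1))
        (fun n n' m => g k n n' m - t2 * s2⁻¹ / 2 * dh s2 (W k k) n' m)
      = ∑ k ∈ Ico k₀ N, GW N R S T (k + 1) (c (k + 1)) (g k)
        - t2 * s2⁻¹ / 2 * ∑ k ∈ Ico k₀ N, GW N R S T (k + 1) (c (k + 1)) (fun _ n' m =>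
          dh s2 (W k k) n' m) := by
    rw [Finset.mul_sum, ← Finset.sum_sub_distrib]
    exact Finset.sum_congr rfl fun k _ => GW_sub ..
  rw [e] at h
  linarith

/-! ### Change of both slots, raw partner -/

section mat

variable {n : Type*} [Fintype n] [DecidableEq n]

/-- both slots change: the births of the raw slot meet the new partner, the births of the capped
slot are paid by the cap of the old raw slot -/
theorem change_rb {s τ : ℝ} (hs : 0 < s) (hτ : 0 ≤ τ) {V V' E B X X' F G : Matrix n n ℝ}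
    (pB : B.PosSemidef) (pX : X.PosSemidef) (pX' : X'.PosSemidef) (pF : F.PosSemidef)
    (pG : G.PosSemidef) (pV : V.PosSemidef)
    (cV : (τ • (1 : Matrix n n ℝ) - V).PosSemidef)
    (eV : V + E = V' + B) (eX : X + F = X' + G) :
    (V' * phs s X').trace ≤ (V * phs s X).trace + (E * phs s X').trace + τ * F.trace := by
  have a1 : (V' * phs s X').trace + (B * phs s X').trace
      = (V * phs s X').trace + (E * phs s X').trace := by
    rw [← trace_add, ← Matrix.add_mul, ← eV, Matrix.add_mul, trace_add]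
  have a2 : 0 ≤ (B * phs s X').trace := P075.trace_mul_nonneg pB (H92.phs_psd hs pX')
  have a3 : (V * phs s X').trace ≤ (V * phs s (X' + G)).trace :=
    P075.trace_mul_le_right pV (phs_mono hs pX' pG)
  have a4 : (phs s (X + F) * V).trace ≤ (phs s X * V).trace + τ * F.trace :=
    H170.PathAC.phs_add_le hs pX pF cV hτ
  rw [← eX, trace_mul_comm V (phs s (X + F))] at a3
  rw [trace_mul_comm (phs s X) V] at a4
  linarith

end mat

variable {κ : Type*} [Fintype κ] [DecidableEq κ]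

/-! ### The node -/

/-- births of the raw slot on a half cell -/
def bthR (P : ℤ → ℤ → Prop) (A' : ℤ → ℤ → ℝ) (b' : ℤ → ℤ → κ → ℝ)
    (W : ℤ → ℕ → ℤ → Matrix κ κ ℝ) (s : ℝ) (k aA aC : ℕ) (n n' m : ℤ) : ℝ :=
  (PA (rst P k A') k aA n m * phs s (XW b' W k aC n' m)).trace

/-- mass of the changed rows of the stack on the two halves -/
def chD (D : ℤ → ℤ → Prop) (b' : ℤ → ℤ → κ → ℝ) (W : ℤ → ℕ → ℤ → Matrix κ κ ℝ) (k a : ℕ)
    (n m : ℤ) : ℝ :=
  (1 / 2) * ((XW (rst D k b') W k a n (2 * m)).trace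
    + (XW (rst D k b') W k a n (2 * m + 1)).trace)

theorem chD_nonneg {N : ℕ} {W Nn M Nm : ℤ → ℕ → ℤ → Matrix κ κ ℝ} (h : Wf N W Nn M Nm)
    (D : ℤ → ℤ → Prop) (b' : ℤ → ℤ → κ → ℝ) (k a : ℕ) (n m : ℤ) :
    0 ≤ chD D b' W k a n m := by
  unfold chD
  have h0 := (XW_psd h (rst D k b') k a n (2 * m)).trace_nonneg
  have h1 := (XW_psd h (rst D k b') k a n (2 * m + 1)).trace_nonneg
  linarith

/-- one half of the node -/
theorem half_change {N : ℕ} {W Nn M Nm : ℤ → ℕ → ℤ → Matrix κ κ ℝ} (h : Wf N W Nn M Nm) {k : ℕ}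
    {τ s : ℝ} (hs : 0 < s) (hτ : 0 ≤ τ) {A A' : ℤ → ℤ → ℝ} {b b' : ℤ → ℤ → κ → ℝ}
    {P D : ℤ → ℤ → Prop}
    (hP : ∀ z m, ¬ P z m → ∀ y ∈ iv k m, A' z y = A z y)
    (hD : ∀ x m, ¬ D x m → ∀ y ∈ iv k m, b' x y = b x y) (aA aC : ℕ) (n n' m : ℤ)
    (hA : (τ • (1 : Matrix (Ix k) (Ix k) ℝ) - PA A k aA n m).PosSemidef) :
    (PA A' k aA n m * phs s (XW b' W k aC n' m)).trace
      ≤ (PA A k aA n m * phs s (XW b W k aC n' m)).trace
        + bthR P A' b' W s k aA aC n n' m + τ * (XW (rst D k b') W k aC n' m).trace :=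
  change_rb hs hτ (PA_psd (rst P k A) k aA n m) (XW_psd h b k aC n' m)
    (XW_psd h b' k aC n' m) (XW_psd h (rst D k b') k aC n' m)
    (XW_psd h (rst D k b) k aC n' m) (PA_psd A k aA n m) hA
    (PA_change hP aA n m) (QW_change hD aC (fun x => W x k m) n' m)

/-- **The middle step for paths, raw partner.** -/
theorem nodeACp {N : ℕ} {W Nn M Nm : ℤ → ℕ → ℤ → Matrix κ κ ℝ} (h : Wf N W Nn M Nm) {k : ℕ}
    (hk : k < N) {τ s : ℝ} (hs : 0 < s) (hτ : 0 ≤ τ) {A A' : ℤ → ℤ → ℝ} {b b' : ℤ → ℤ → κ → ℝ}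
    {P D : ℤ → ℤ → Prop}
    (hP : ∀ z m, ¬ P z m → ∀ y ∈ iv k m, A' z y = A z y)
    (hD : ∀ x m, ¬ D x m → ∀ y ∈ iv k m, b' x y = b x y) (aA aC : ℕ) (n n' m : ℤ)
    (hA : ∀ m, (τ • (1 : Matrix (Ix k) (Ix k) ℝ) - PA A k aA n m).PosSemidef)
    (hA' : ∀ m, (τ • (1 : Matrix (Ix k) (Ix k) ℝ) - PA A' k aA n m).PosSemidef) :
    (PA A' (k + 1) aA n m * phs s (XW b' W (k + 1) aC n' m)).trace
        + (1 / 4) * gAC A' b' W s k aA aC n n' m
      ≤ (1 / 2) * ((PA A k aA n (2 * m) * phs s (XW b W k aC n' (2 * m))).trace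
          + (PA A k aA n (2 * m + 1) * phs s (XW b W k aC n' (2 * m + 1))).trace)
        + τ * (s⁻¹ / 2 * gC b' W s k aC n' m + qAC b' W M Nm k aC n' m)
        + (1 / 2) * (bthR P A' b' W s k aA aC n n' (2 * m)
          + bthR P A' b' W s k aA aC n n' (2 * m + 1))
        + τ * chD D b' W k aC n' m := by
  have q := nodeAC h hk hs hτ A' b' aA aC n n' m (hA' _) (hA' _)
  have h0 := half_change h hs hτ hP hD aA aC n n' (2 * m) (hA _)
  have h1 := half_change h hs hτ hP hD aA aC n n' (2 * m + 1) (hA _)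
  unfold chD
  linarith

/-! ### The plane sum -/

/-- births of the raw slot over the plane, all scales -/
def BBp (k₀ N : ℕ) (R S T : ℤ) (c : ℕ → ℤ) (P : ℕ → ℤ → ℤ → Prop) (A : ℕ → ℤ → ℤ → ℝ)
    (b : ℕ → ℤ → ℤ → κ → ℝ) (W : ℤ → ℕ → ℤ → Matrix κ κ ℝ) (s : ℝ) : ℝ :=
  ∑ k ∈ Ico k₀ N, GW N R S T (k + 1) (c (k + 1)) (fun n n' m =>
    (1 / 2) * (bthR (P k) (A (k + 1)) (b (k + 1)) W s k (k + 1) (k + 1) n n' (2 * m)
      + bthR (P k) (A (k + 1)) (b (k + 1)) W s k (k + 1) (k + 1) n n' (2 * m + 1)))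

/-- energy of a slot in the weight of scale `k` -/
def eW (N : ℕ) (T S : ℤ) (b : ℤ → ℤ → κ → ℝ) (W : ℤ → ℕ → ℤ → Matrix κ κ ℝ) (k : ℕ) : ℝ :=
  ∑ x ∈ iv N T, ∑ y ∈ iv N S, b x y ⬝ᵥ W x k (ix k y) *ᵥ b x y

/-- the changed rows of the stack over the plane: the energy of the changed rows -/
theorem GW_chD {N : ℕ} {W Nn M Nm : ℤ → ℕ → ℤ → Matrix κ κ ℝ} (h : Wf N W Nn M Nm)
    (D : ℤ → ℤ → Prop) (b' : ℤ → ℤ → κ → ℝ) {k : ℕ} (hk : k < N) (R S T c : ℤ) :
    GW N R S T (k + 1) c (fun _ n' m => chD D b' W k (k + 1) n' m)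
      ≤ eW N T S (rst D k b') W k := by
  refine (GW_le_sum N R S T (k + 1) c fun n m => chD_nonneg h D b' k (k + 1) n m).trans
    (le_of_eq ?_)
  have e := sum_tr_QW (N := N) (a := k + 1) (k := k) hk hk.le T S (rst D k b')
    (fun m x => W x k m)
  have e2 : ∑ m ∈ iv (N - (k + 1)) S, ∑ n' ∈ iv (N - (k + 1)) T, chD D b' W k (k + 1) n' m
      = (1 / 2) * ∑ m ∈ iv (N - k) S, ∑ n ∈ iv (N - (k + 1)) T,
        (QW (k + 1) k (rst D k b') (fun x => W x k m) n m).trace := by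
    have hNk : N - k = (N - (k + 1)) + 1 := by omega
    rw [hNk, H588.sum_iv_succ (N - (k + 1)) S, Finset.mul_sum]
    refine Finset.sum_congr rfl fun m _ => ?_
    rw [← Finset.sum_add_distrib, Finset.mul_sum]
    rfl
  rw [e2, eW, ← e]
  have h4 : (4 : ℝ) ^ (k + 1) = 2 * (2 ^ (k + 1) * 2 ^ k) := by
    rw [show (4 : ℝ) = 2 * 2 by norm_num, mul_pow, pow_succ]; ring
  rw [h4]
  ring

/-- **The pair of a raw slot against a capped moving stack, paths.** -/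
theorem realACp {N : ℕ} {W Nn M Nm : ℤ → ℕ → ℤ → Matrix κ κ ℝ} (h : Wf N W Nn M Nm)
    {k₀ : ℕ} (hkN : k₀ ≤ N) {R S T : ℤ} {c : ℕ → ℤ} (hc : H588.Pl c) {τ s : ℝ} (hs : 0 < s)
    (hτ : 0 ≤ τ) (A : ℕ → ℤ → ℤ → ℝ) (b : ℕ → ℤ → ℤ → κ → ℝ) {P D : ℕ → ℤ → ℤ → Prop}
    (hP : ∀ k, k₀ ≤ k → k < N → ∀ z m, ¬ P k z m → ∀ y ∈ iv k m, A (k + 1) z y = A k z y)
    (hD : ∀ k, k₀ ≤ k → k < N → ∀ x m, ¬ D k x m → ∀ y ∈ iv k m, b (k + 1) x y = b k x y)
    (hA : ∀ k, k₀ ≤ k → k < N → ∀ n m,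
      (τ • (1 : Matrix (Ix k) (Ix k) ℝ) - PA (A k) k (k + 1) n m).PosSemidef)
    (hA' : ∀ k, k₀ ≤ k → k < N → ∀ n m,
      (τ • (1 : Matrix (Ix k) (Ix k) ℝ) - PA (A (k + 1)) k (k + 1) n m).PosSemidef) :
    (1 / 4) * ∑ k ∈ Ico k₀ N, GW N R S T (k + 1) (c (k + 1))
        (gAC (A (k + 1)) (b (k + 1)) W s k (k + 1) (k + 1))
      ≤ √(TV k₀ N R S (fun k => PA (A k) k)
          * TV k₀ N T S (fun k a n m => phs s (XW (b k) W k a n m)))
        + τ * s⁻¹ / 2 * ∑ k ∈ Ico k₀ N, GW N R S T (k + 1) (c (k + 1)) (fun _ n' m =>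
          dh s (XW (b k) W k k) n' m)
        + τ * s⁻¹ / 2 * ∑ k ∈ Ico k₀ N, GW N R S T (k + 1) (c (k + 1))
          (fun _ n' m => gC (b (k + 1)) W s k (k + 1) n' m)
        + 2 * τ * ∑ k ∈ Ico k₀ N, cAC N T S (b (k + 1)) W M Nm k
        + τ * ∑ k ∈ Ico k₀ N, eW N T S (rst (D k) k (b (k + 1))) W k
        + BBp k₀ N R S T c P A b W s := by
  have H := pairAC_TV hkN hc (P := fun k => PA (A k) k) (W := fun k => XW (b k) W k) (s2 := s)
    (t2 := τ) (R := R) (S := S) (T := T) hs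
    (g := fun k n n' m => (1 / 4) * gAC (A (k + 1)) (b (k + 1)) W s k (k + 1) (k + 1) n n' m
      - ((τ * (s⁻¹ / 2) * gC (b (k + 1)) W s k (k + 1) n' m
        + τ * qAC (b (k + 1)) W M Nm k (k + 1) n' m)
        + (τ * chD (D k) (b (k + 1)) W k (k + 1) n' m
        + (1 / 2) * (bthR (P k) (A (k + 1)) (b (k + 1)) W s k (k + 1) (k + 1) n n' (2 * m)
          + bthR (P k) (A (k + 1)) (b (k + 1)) W s k (k + 1) (k + 1) n n' (2 * m + 1)))))
    (fun k a n m => PA_symm (A k) k a n m) (fun k a n m => XW_psd h (b k) k a n m)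
    (fun k _ _ => PA_out N k (A k)) (fun k _ _ => XW_out N k (b k) W) hA
    (fun k h1 h2 n n' m => by
      have q := nodeACp h h2 hs hτ (hP k h1 h2) (hD k h1 h2) (k + 1) (k + 1) n n' m
        (fun m => hA k h1 h2 n m) (fun m => hA' k h1 h2 n m)
      linarith)
  have e : ∀ k, GW N R S T (k + 1) (c (k + 1)) (fun n n' m =>
      (1 / 4) * gAC (A (k + 1)) (b (k + 1)) W s k (k + 1) (k + 1) n n' m
      - ((τ * (s⁻¹ / 2) * gC (b (k + 1)) W s k (k + 1) n' m
        + τ * qAC (b (k + 1)) W M Nm k (k + 1) n' m)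
        + (τ * chD (D k) (b (k + 1)) W k (k + 1) n' m
        + (1 / 2) * (bthR (P k) (A (k + 1)) (b (k + 1)) W s k (k + 1) (k + 1) n n' (2 * m)
          + bthR (P k) (A (k + 1)) (b (k + 1)) W s k (k + 1) (k + 1) n n' (2 * m + 1)))))
      = (1 / 4) * GW N R S T (k + 1) (c (k + 1))
          (gAC (A (k + 1)) (b (k + 1)) W s k (k + 1) (k + 1))
        - ((τ * (s⁻¹ / 2) * GW N R S T (k + 1) (c (k + 1))
            (fun _ n' m => gC (b (k + 1)) W s k (k + 1) n' m)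
          + τ * GW N R S T (k + 1) (c (k + 1))
            (fun _ n' m => qAC (b (k + 1)) W M Nm k (k + 1) n' m))
          + (τ * GW N R S T (k + 1) (c (k + 1))
            (fun _ n' m => chD (D k) (b (k + 1)) W k (k + 1) n' m)
          + GW N R S T (k + 1) (c (k + 1)) (fun n n' m =>
            (1 / 2) * (bthR (P k) (A (k + 1)) (b (k + 1)) W s k (k + 1) (k + 1) n n' (2 * m)
            + bthR (P k) (A (k + 1)) (b (k + 1)) W s k (k + 1) (k + 1) n n' (2 * m + 1))))) := by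
    intro k
    have s1 := GW_sub N R S T (k + 1) (c (k + 1))
      (fun n n' m => (1 / 4) * gAC (A (k + 1)) (b (k + 1)) W s k (k + 1) (k + 1) n n' m)
      (fun n n' m => (τ * (s⁻¹ / 2) * gC (b (k + 1)) W s k (k + 1) n' m
        + τ * qAC (b (k + 1)) W M Nm k (k + 1) n' m)
        + (τ * chD (D k) (b (k + 1)) W k (k + 1) n' m
        + (1 / 2) * (bthR (P k) (A (k + 1)) (b (k + 1)) W s k (k + 1) (k + 1) n n' (2 * m)
          + bthR (P k) (A (k + 1)) (b (k + 1)) W s k (k + 1) (k + 1) n n' (2 * m + 1)))) 1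
    simp only [one_mul] at s1
    rw [s1, GW_smul, H389.GW_add, H389.GW_add, H389.GW_add, GW_smul, GW_smul, GW_smul]
  have e3 : ∑ k ∈ Ico k₀ N, GW N R S T (k + 1) (c (k + 1)) (fun n n' m =>
      (1 / 4) * gAC (A (k + 1)) (b (k + 1)) W s k (k + 1) (k + 1) n n' m
      - ((τ * (s⁻¹ / 2) * gC (b (k + 1)) W s k (k + 1) n' m
        + τ * qAC (b (k + 1)) W M Nm k (k + 1) n' m)
        + (τ * chD (D k) (b (k + 1)) W k (k + 1) n' m
        + (1 / 2) * (bthR (P k) (A (k + 1)) (b (k + 1)) W s k (k + 1) (k + 1) n n' (2 * m)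
          + bthR (P k) (A (k + 1)) (b (k + 1)) W s k (k + 1) (k + 1) n n' (2 * m + 1)))))
      = (1 / 4) * ∑ k ∈ Ico k₀ N, GW N R S T (k + 1) (c (k + 1))
          (gAC (A (k + 1)) (b (k + 1)) W s k (k + 1) (k + 1))
        - ((τ * (s⁻¹ / 2) * ∑ k ∈ Ico k₀ N, GW N R S T (k + 1) (c (k + 1))
            (fun _ n' m => gC (b (k + 1)) W s k (k + 1) n' m)
          + τ * ∑ k ∈ Ico k₀ N, GW N R S T (k + 1) (c (k + 1))
            (fun _ n' m => qAC (b (k + 1)) W M Nm k (k + 1) n' m))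
          + (τ * ∑ k ∈ Ico k₀ N, GW N R S T (k + 1) (c (k + 1))
            (fun _ n' m => chD (D k) (b (k + 1)) W k (k + 1) n' m)
          + BBp k₀ N R S T c P A b W s)) := by
    rw [Finset.sum_congr rfl fun k _ => e k, BBp]
    simp only [Finset.mul_sum, ← Finset.sum_add_distrib, ← Finset.sum_sub_distrib]
  rw [e3] at H
  have h3 : ∑ k ∈ Ico k₀ N, GW N R S T (k + 1) (c (k + 1))
            (fun _ n' m => qAC (b (k + 1)) W M Nm k (k + 1) n' m)
      ≤ 2 * ∑ k ∈ Ico k₀ N, cAC N T S (b (k + 1)) W M Nm k := by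
    rw [Finset.mul_sum]
    exact Finset.sum_le_sum fun k hk => GW_qAC h (b (k + 1)) (mem_Ico.1 hk).2 R S T _
  have h4 := mul_le_mul_of_nonneg_left h3 hτ
  have h5 : ∑ k ∈ Ico k₀ N, GW N R S T (k + 1) (c (k + 1))
            (fun _ n' m => chD (D k) (b (k + 1)) W k (k + 1) n' m)
      ≤ ∑ k ∈ Ico k₀ N, eW N T S (rst (D k) k (b (k + 1))) W k :=
    Finset.sum_le_sum fun k hk => GW_chD h (D k) (b (k + 1)) (mem_Ico.1 hk).2 R S T _
  have h6 := mul_le_mul_of_nonneg_left h5 hτ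
  linarith

end

end Vale.Agent.P141.H92
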